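import Vale.Agent.H86.CT.SwConn

/-!
P328, ROW ONEDIM: the class of a `2 x 2` block relation is a one-parameter family, parametrised
by the entry at `(i, v)` running through an interval; the block average is an interval average.
-/

namespace Vale.Agent.H86.CT

open Finset Vale.Agent.H90 Vale.Agent.H88.CT

variable {m n : ℕ} {r : Fin m → ℕ} {c : Fin n → ℕ}

/-- row sum of the block of `X` in row `i` -/
def bSig (i : Fin m) (v w : Fin n) (X : Fin m → Fin n → ℕ) : ℕ := X i v + X i w

/-- column sum of the block of `X` in column `v` -/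
def bCol (i j : Fin m) (v : Fin n) (X : Fin m → Fin n → ℕ) : ℕ := X i v + X j v

/-- smallest admissible entry at `(i, v)` -/
def blkLo (i j : Fin m) (v w : Fin n) (X : Fin m → Fin n → ℕ) : ℕ :=
  bSig i v w X - min (bSig i v w X) (bCol i j w X)

/-- largest admissible entry at `(i, v)` -/
def blkHi (i j : Fin m) (v w : Fin n) (X : Fin m → Fin n → ℕ) : ℕ :=
  min (bCol i j v X) (bSig i v w X)

/-- the entries of the table of the block class of `X` with entry `t` at `(i, v)` -/
def blkFun (i j : Fin m) (v w : Fin n) (X : Fin m → Fin n → ℕ) (t : ℕ) : Fin m → Fin n → ℕ :=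
  fun k l => if k = i ∧ l = v then t else if k = i ∧ l = w then bSig i v w X - t
    else if k = j ∧ l = v then bCol i j v X - t
    else if k = j ∧ l = w then bCol i j w X + t - bSig i v w X else X k l

theorem blkFun_iv (i j : Fin m) (v w : Fin n) (X : Fin m → Fin n → ℕ) (t : ℕ) :
    blkFun i j v w X t i v = t := by
  unfold blkFun
  rw [if_pos ⟨rfl, rfl⟩]

theorem blkFun_iw (i j : Fin m) (v w : Fin n) (hvw : v ≠ w) (X : Fin m → Fin n → ℕ) (t : ℕ) :
    blkFun i j v w X t i w = bSig i v w X - t := by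
  unfold blkFun
  rw [if_neg (fun hh => hvw hh.2.symm), if_pos ⟨rfl, rfl⟩]

theorem blkFun_jv (i j : Fin m) (hij : i ≠ j) (v w : Fin n) (X : Fin m → Fin n → ℕ) (t : ℕ) :
    blkFun i j v w X t j v = bCol i j v X - t := by
  unfold blkFun
  rw [if_neg (fun hh => hij hh.1.symm), if_neg (fun hh => hij hh.1.symm), if_pos ⟨rfl, rfl⟩]

theorem blkFun_jw (i j : Fin m) (hij : i ≠ j) (v w : Fin n) (hvw : v ≠ w)
    (X : Fin m → Fin n → ℕ) (t : ℕ) :
    blkFun i j v w X t j w = bCol i j w X + t - bSig i v w X := by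
  unfold blkFun
  rw [if_neg (fun hh => hij hh.1.symm), if_neg (fun hh => hij hh.1.symm),
    if_neg (fun hh => hvw hh.2.symm), if_pos ⟨rfl, rfl⟩]

theorem blkFun_off (i j : Fin m) (v w : Fin n) (X : Fin m → Fin n → ℕ) (t : ℕ) (k : Fin m)
    (l : Fin n) (hkl : ¬ ((k = i ∨ k = j) ∧ (l = v ∨ l = w))) : blkFun i j v w X t k l = X k l := by
  unfold blkFun
  rw [if_neg (fun hh => hkl ⟨Or.inl hh.1, Or.inl hh.2⟩),
    if_neg (fun hh => hkl ⟨Or.inl hh.1, Or.inr hh.2⟩),
    if_neg (fun hh => hkl ⟨Or.inr hh.1, Or.inl hh.2⟩),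
    if_neg (fun hh => hkl ⟨Or.inr hh.1, Or.inr hh.2⟩)]

/-- admissibility of the parameter `t` -/
def BlkOk (i j : Fin m) (v w : Fin n) (X : Fin m → Fin n → ℕ) (t : ℕ) : Prop :=
  t ≤ bSig i v w X ∧ t ≤ bCol i j v X ∧ bSig i v w X ≤ bCol i j w X + t

instance (i j : Fin m) (v w : Fin n) (X : Fin m → Fin n → ℕ) (t : ℕ) :
    Decidable (BlkOk i j v w X t) := by
  unfold BlkOk; infer_instance

theorem blkOk_iff (i j : Fin m) (v w : Fin n) (X : Fin m → Fin n → ℕ) (t : ℕ) :
    BlkOk i j v w X t ↔ blkLo i j v w X ≤ t ∧ t ≤ blkHi i j v w X := by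
  unfold BlkOk blkLo blkHi
  omega

theorem blkFun_row (i j : Fin m) (hij : i ≠ j) (v w : Fin n) (hvw : v ≠ w)
    (X : Fin m → Fin n → ℕ) (t : ℕ) (ht : BlkOk i j v w X t) (k : Fin m) :
    ∑ l, blkFun i j v w X t k l = ∑ l, X k l := by
  obtain ⟨h1, h2, h3⟩ := ht
  rw [sum_two (fun l => blkFun i j v w X t k l) v w hvw, sum_two (fun l => X k l) v w hvw]
  have e3 : ∑ l ∈ (univ.erase v).erase w, blkFun i j v w X t k l
      = ∑ l ∈ (univ.erase v).erase w, X k l := by
    refine Finset.sum_congr rfl (fun l hl => ?_)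
    have hl1 := (mem_erase.mp hl).1
    have hl2 := (mem_erase.mp (mem_erase.mp hl).2).1
    exact blkFun_off i j v w X t k l (fun hh => hh.2.elim hl2 hl1)
  rw [e3]
  by_cases hki : k = i
  · subst hki
    rw [blkFun_iv, blkFun_iw k j v w hvw]
    simp only [bSig, bCol] at h1 h2 h3 ⊢
    omega
  · by_cases hkj : k = j
    · subst hkj
      rw [blkFun_jv i k hij, blkFun_jw i k hij v w hvw]
      simp only [bSig, bCol] at h1 h2 h3 ⊢
      omega
    · rw [blkFun_off i j v w X t k v (fun hh => hh.1.elim hki hkj),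
        blkFun_off i j v w X t k w (fun hh => hh.1.elim hki hkj)]

theorem blkFun_col (i j : Fin m) (hij : i ≠ j) (v w : Fin n) (hvw : v ≠ w)
    (X : Fin m → Fin n → ℕ) (t : ℕ) (ht : BlkOk i j v w X t) (l : Fin n) :
    ∑ k, blkFun i j v w X t k l = ∑ k, X k l := by
  obtain ⟨h1, h2, h3⟩ := ht
  rw [sum_two (fun k => blkFun i j v w X t k l) i j hij, sum_two (fun k => X k l) i j hij]
  have e3 : ∑ k ∈ (univ.erase i).erase j, blkFun i j v w X t k l
      = ∑ k ∈ (univ.erase i).erase j, X k l := by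
    refine Finset.sum_congr rfl (fun k hk => ?_)
    have hk1 := (mem_erase.mp hk).1
    have hk2 := (mem_erase.mp (mem_erase.mp hk).2).1
    exact blkFun_off i j v w X t k l (fun hh => hh.1.elim hk2 hk1)
  rw [e3]
  by_cases hlv : l = v
  · subst hlv
    rw [blkFun_iv, blkFun_jv i j hij]
    simp only [bSig, bCol] at h1 h2 h3 ⊢
    omega
  · by_cases hlw : l = w
    · subst hlw
      rw [blkFun_iw i j v l hvw, blkFun_jw i j hij v l hvw]
      simp only [bSig, bCol] at h1 h2 h3 ⊢
      omega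
    · rw [blkFun_off i j v w X t i l (fun hh => hh.2.elim hlv hlw),
        blkFun_off i j v w X t j l (fun hh => hh.2.elim hlv hlw)]

/-- the table of the block class of `X` with an admissible entry `t` at `(i, v)` -/
def blkMk (i j : Fin m) (hij : i ≠ j) (v w : Fin n) (hvw : v ≠ w) (X : Omega r c) (t : ℕ)
    (ht : BlkOk i j v w X.1 t) : Omega r c :=
  ⟨blkFun i j v w X.1 t,
    fun k => (blkFun_row i j hij v w hvw X.1 t ht k).trans (X.2.1 k),
    fun l => (blkFun_col i j hij v w hvw X.1 t ht l).trans (X.2.2 l)⟩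

/-- the table of the block class of `X` with entry `t` at `(i, v)` (and `X` itself when `t` is not
admissible) -/
def blkTab (i j : Fin m) (hij : i ≠ j) (v w : Fin n) (hvw : v ≠ w) (X : Omega r c) (t : ℕ) :
    Omega r c :=
  if ht : BlkOk i j v w X.1 t then blkMk i j hij v w hvw X t ht else X

theorem blkTab_val (i j : Fin m) (hij : i ≠ j) (v w : Fin n) (hvw : v ≠ w) (X : Omega r c) (t : ℕ)
    (ht : BlkOk i j v w X.1 t) : (blkTab i j hij v w hvw X t).1 = blkFun i j v w X.1 t := by
  unfold blkTab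
  rw [dif_pos ht]
  rfl

theorem blockRel_blkTab (i j : Fin m) (hij : i ≠ j) (v w : Fin n) (hvw : v ≠ w) (X : Omega r c)
    (t : ℕ) : BlockRel i j v w X (blkTab i j hij v w hvw X t) := by
  by_cases ht : BlkOk i j v w X.1 t
  · intro k l hkl
    rw [blkTab_val i j hij v w hvw X t ht, blkFun_off i j v w X.1 t k l hkl]
  · unfold blkTab
    rw [dif_neg ht]
    exact fun _ _ _ => rfl

/-- every table of the block class is a `blkTab` with an admissible parameter -/
theorem blockRel_eq_blkTab (i j : Fin m) (hij : i ≠ j) (v w : Fin n) (hvw : v ≠ w)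
    (X Z : Omega r c) (h : BlockRel i j v w X Z) :
    BlkOk i j v w X.1 (Z.1 i v) ∧ Z = blkTab i j hij v w hvw X (Z.1 i v) := by
  obtain ⟨e1, e2, e3, e4⟩ := blockRel_entries i j hij v w hvw X Z h
  have hok : BlkOk i j v w X.1 (Z.1 i v) := by
    unfold BlkOk bSig bCol
    omega
  refine ⟨hok, ?_⟩
  have h' : BlockRel i j v w Z (blkTab i j hij v w hvw X (Z.1 i v)) :=
    fun k l hkl => (h k l hkl).symm.trans (blockRel_blkTab i j hij v w hvw X (Z.1 i v) k l hkl)
  refine eq_of_blockRel_of_entry i j hij v w hvw Z _ h' ?_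
  rw [blkTab_val i j hij v w hvw X _ hok, blkFun_iv]

/-- the block average as an interval average -/
theorem avgRel_blockRel_eq (i j : Fin m) (hij : i ≠ j) (v w : Fin n) (hvw : v ≠ w)
    (f : Omega r c → ℝ) (X : Omega r c) :
    avgRel (BlockRel i j v w) f X
      = (∑ t ∈ Finset.Icc (blkLo i j v w X.1) (blkHi i j v w X.1),
          f (blkTab i j hij v w hvw X t))
        / ((blkHi i j v w X.1 + 1 - blkLo i j v w X.1 : ℕ) : ℝ) := by
  have hinj : Set.InjOn (blkTab i j hij v w hvw X)
      (↑(Finset.Icc (blkLo i j v w X.1) (blkHi i j v w X.1)) : Set ℕ) := by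
    intro t ht t' ht' hEq
    have ht1 := (blkOk_iff i j v w X.1 t).2 (Finset.mem_Icc.mp (Finset.mem_coe.mp ht))
    have ht2 := (blkOk_iff i j v w X.1 t').2 (Finset.mem_Icc.mp (Finset.mem_coe.mp ht'))
    have e : (blkTab i j hij v w hvw X t).1 i v = (blkTab i j hij v w hvw X t').1 i v := by
      rw [hEq]
    rw [blkTab_val i j hij v w hvw X t ht1, blkTab_val i j hij v w hvw X t' ht2, blkFun_iv,
      blkFun_iv] at e
    exact e
  have hset : univ.filter (fun Z => BlockRel i j v w X Z)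
      = (Finset.Icc (blkLo i j v w X.1) (blkHi i j v w X.1)).image
          (blkTab i j hij v w hvw X) := by
    ext Z
    simp only [mem_filter, mem_univ, true_and, mem_image]
    constructor
    · intro h
      obtain ⟨hok, hZ⟩ := blockRel_eq_blkTab i j hij v w hvw X Z h
      exact ⟨Z.1 i v, Finset.mem_Icc.mpr ((blkOk_iff i j v w X.1 _).1 hok), hZ.symm⟩
    · rintro ⟨t, -, rfl⟩
      exact blockRel_blkTab i j hij v w hvw X t
  unfold avgRel
  rw [hset, Finset.sum_image hinj, Finset.card_image_of_injOn hinj, Nat.card_Icc]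

end Vale.Agent.H86.CT
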